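import Vale.Agent.N090R.Main

/-! For a countable uniformly discrete space a Lipschitz retraction of the bidual onto the free
space gives the bounded approximation property with the same constant; so some separable Banach
space is not a Lipschitz retract of its bidual. -/

namespace Vale.Agent.Results.P090.A0BidualRetract

open Vale.Agent.N090R
open scoped NNReal

theorem result :
    -- (1) Lipschitz retractions give the bounded approximation property
    (∀ (M X : Type) [MetricSpace M] [Countable M] [NormedAddCommGroup X] [NormedSpace ℝ X] (o : M)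
      (δ : M → X), (∃ θ : ℝ, 0 < θ ∧ ∀ x y : M, x ≠ y → θ ≤ dist x y) → IsFree o δ →
        ∀ K L : ℝ≥0, (BidualRetract L X → BAP L X) ∧ (DualFactor K L X → BAP (L * K) X)) ∧
    -- (2) a separable space that is not a Lipschitz retract of its bidual
    (∃ (M : Type) (_ : MetricSpace M), Nonempty M ∧ Countable M ∧
      (∀ x y : M, ∃ n : ℕ, dist x y = n) ∧ ∀ o : M,
      (∃ (X : Type) (_ : NormedAddCommGroup X) (_ : NormedSpace ℝ X) (δ : M → X), IsFree o δ) ∧
      ∀ (X : Type) [NormedAddCommGroup X] [NormedSpace ℝ X] (δ : M → X), IsFree o δ →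
        TopologicalSpace.SeparableSpace X ∧ (∀ L, ¬ BidualRetract L X) ∧
        (∀ K L, ¬ DualFactor K L X) ∧ NoSepRetract X) ∧
    -- (3) bounded spaces
    ∀ L : ℝ≥0, 1 ≤ L → ∃ (M : Type) (_ : MetricSpace M), Nonempty M ∧ Countable M ∧
      (∀ x y : M, ∃ n : ℕ, dist x y = n) ∧ (∀ x y : M, dist x y ≤ (52 * L + 65) ^ 2) ∧ ∀ o : M,
      (∃ (X : Type) (_ : NormedAddCommGroup X) (_ : NormedSpace ℝ X) (δ : M → X), IsFree o δ) ∧
      ∀ (X : Type) [NormedAddCommGroup X] [NormedSpace ℝ X] (δ : M → X), IsFree o δ →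
        ¬ BidualRetract L X := by
  have hM : ∀ x y : P090.MM, ∃ n : ℕ, dist x y = n := fun x y => ⟨_, P090.glue_dist _ x y⟩
  refine ⟨fun M X _ _ _ _ o δ hs h K L => ⟨h.bap_of_retract hs, fun hD => ?_⟩,
    ⟨P090.MM, inferInstance, ⟨P090.Glue.base _⟩, inferInstance, hM, fun o => ⟨exists_isFree _ o,
    fun X _ _ δ h => ⟨h.separable, fun L hR => ?_, fun K L hD => ?_, ?_⟩⟩⟩, fun L hL => ?_⟩
  · exact_mod_cast h.bap_of_retract hs hD.bidual
  · exact not_bap_MM h _ (h.bap_of_retract (sep_of_nat hM) hR)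
  · exact not_bap_MM h _ (h.bap_of_retract (sep_of_nat hM) hD.bidual)
  · exact h.noSepRetract (sep_of_nat hM) (not_bap_MM h)
  · obtain ⟨M, i, h1, h2, h3, h4, h5⟩ := exists_bounded L hL
    exact ⟨M, i, h1, h2, h3, h4, fun o => ⟨exists_isFree M o, fun X _ _ δ h => h5 X o δ h⟩⟩

end Vale.Agent.Results.P090.A0BidualRetract
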