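import Vale.Agent.N090.EllOne

/-! Counterexamples to Kalton's question among Cayley graphs. -/

namespace Vale.Agent.Results.P090.A0CayleyNetsEllOne

open Vale.Agent.N090

/-- Every group which maps onto `ℤ` has a Cayley graph whose free space fails the BAP. -/
theorem result :
    ∀ (Γ : Type) [Group Γ] (π : Γ →* Multiplicative ℤ), Function.Surjective π →
      ∃ (S : Set Γ) (_ : MetricSpace Γ), (SimpleGraph.mulCayley S).Connected ∧
        (∀ a b : Γ, dist a b = (SimpleGraph.mulCayley S).dist a b) ∧ ∀ o : Γ, ¬ FreeBAP Γ o :=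
  fun Γ _ π hπ => exists_cayley Γ π hπ

end Vale.Agent.Results.P090.A0CayleyNetsEllOne
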