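import Vale.Agent.N090B.Coarse
import Vale.Agent.N090B.Upper
import Vale.Agent.N090B.Defs

/-! The best constant of the bounded approximation property for distances in `[1, D]` has the
exact order `√D`, and the failure of the property is a coarse invariant: it passes to all uniformly
discrete spaces coarsely equivalent to one graph, for instance to its snowflakes. -/

namespace Vale.Agent.Results.P090.A0SqrtCoarse

open Vale.Agent.P090 Vale.Agent.N090B

theorem result :
    -- (1) upper bound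
    (∀ (M : Type) [MetricSpace M] (o : M) (D : ℝ), 0 < D → (∀ x y : M, x ≠ y → 1 ≤ dist x y) →
      (∀ x, dist x o ≤ D) → FBW (1 + √(2 * D)) M o) ∧
    -- (2) lower bound, also after a change of the metric by a gauge `ω`
    (∀ D : ℕ, 1 ≤ D → ∃ (M : Type) (_ : MetricSpace M), Nonempty M ∧ Countable M ∧
      (∀ x y : M, ∃ n ≤ D, dist x y = (n : ℕ)) ∧
      (∀ o : M, ¬ FBW (√D / 5 - 1) M o) ∧
      ∀ ω : ℝ → ℝ, ConcaveOn ℝ (Set.Ici 0) ω → MonotoneOn ω (Set.Ici 0) → ω 0 = 0 → ω 1 = 1 →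
        ∀ (N : Type) [MetricSpace N] (e : M ≃ N), (∀ x y, dist (e x) (e y) = ω (dist x y)) →
          ∀ o : N, ¬ FBW (√(ω D) / 5 - 1) N o) ∧
    -- (3) a countable connected graph `G` on `V`; the metric of `V` is the path metric
    ∃ (V : Type) (_ : MetricSpace V) (G : SimpleGraph V), Countable V ∧ G.Connected ∧
      (∀ x y : V, dist x y = G.dist x y) ∧
      -- (3a) uniformly discrete spaces of which `V` is a coarse retract
      (∀ (N : Type) [MetricSpace N], UniformlyDiscrete N → ∀ (f : V → N) (g : N → V),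
        (∀ r : ℝ, ∃ s : ℝ, ∀ x y, dist x y ≤ r → dist (f x) (f y) ≤ s) →
        (∀ r : ℝ, ∃ s : ℝ, ∀ x y, dist x y ≤ r → dist (g x) (g y) ≤ s) →
        (∃ C : ℝ, ∀ x, dist (g (f x)) x ≤ C) →
        ∀ o : N, ¬ FB N o ∧ ¬ FC N o) ∧
      -- (3b) snowflakes
      ∀ (α : ℝ) (h₀ : 0 < α) (h₁ : α ≤ 1) (o : Metric.Snowflaking V α h₀ h₁),
        ¬ FB (Metric.Snowflaking V α h₀ h₁) o := by
  refine ⟨fun M _ o D hD h1 h2 => bap_sqrt h1 hD h2, fun D hD => ?_, ?_⟩
  · refine ⟨MT (jBd D), inferInstance, ⟨Glue.base _⟩, inferInstance,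
      fun x y => ⟨_, gd_bd hD x y, glue_dist _ x y⟩, fun o => ?_,
      fun ω h1 h2 h0 h3 N _ e he o => gauge_lower hD h1 h2 h0 h3 e he o⟩
    exact gauge_lower (ω := id) hD (concaveOn_id (convex_Ici 0)) (monotone_id.monotoneOn _) rfl rfl
      (Equiv.refl _) (fun _ _ => rfl) o
  · obtain ⟨V, hV, G, o, hc, hG, hd, hH⟩ := exists_hard_graph
    refine ⟨V, hV, G, hc, hG, hd, ?_, fun α h₀ h₁ o' => not_bap_of_fails
      (fails_snowflake hH (fun x y hxy => ?_) h₀ h₁ o')⟩
    · rintro N _ hN f g hf hg ⟨C, hC⟩ o'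
      have h := fails_coarse hH hN f g hf hg C hC o'
      exact ⟨not_bap_of_fails h, h.not_hasCompactBAP H117.isLipFree_lipSpan⟩
    · rw [hd]
      exact_mod_cast hG.pos_dist_of_ne hxy

end Vale.Agent.Results.P090.A0SqrtCoarse
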